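import Vale.Agent.P181.TL.DefsE
import Vale.Agent.P181.H467.NT.Defs
import Vale.Agent.P181.H530.Zero
import Vale.Agent.P181.H536.HW

set_option autoImplicit false

/-!
# P181, TL: the final forms in the language of `dn`

`w = dn lam 1` is the number of boxes below row one, `D₂ = dn lam 2` the number of boxes below row
two. The hypotheses on row one and row two are expressed by `w` and `D₂`; `LinS` removes the
hypothesis that row two is long.
-/

namespace Vale.Agent.P181.TL.H850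

open Vale.Agent.P181.H280 (plethMult)
open Vale.Agent.P181.PL (dn)
open Vale.Agent.P181.H467.NT (LinS)

/-- **Two long rows, the union with `LinS`.** -/
def TLUE : Prop := ∃ (C : ℝ) (c : ℕ), 0 < C ∧ ∀ (a b n : ℕ) (lam : Fin n → ℕ),
  11 * dn lam 2 ≤ dn lam 1 → 2 * dn lam 1 + 59 * dn lam 2 + 17 * a ^ 2 ≤ a * b →
  (C * (1 + Real.log a) ^ c * a ≤ (dn lam 2 : ℝ) ∨ a + dn lam 2 ≤ b + 1) →
  plethMult a b n lam ≤ plethMult b a n lam

/-- **Two long rows, `b ≥ C a`.** -/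
def TLE8 : Prop := ∀ θ : ℝ, 0 < θ → ∃ C : ℝ, 0 < C ∧ ∀ a b : ℕ, C * a ≤ b →
  ∀ (n : ℕ) (lam : Fin n → ℕ), θ * (a : ℝ) ^ 2 + 10 * (dn lam 2 : ℝ) ≤ (dn lam 1 : ℝ) →
  2 * dn lam 1 + 59 * dn lam 2 + 17 * a ^ 2 ≤ a * b →
  plethMult a b n lam ≤ plethMult b a n lam

lemma dn_two {k : ℕ} (lam : Fin (k + 2) → ℕ) : dn lam 2 = dn2 lam := by
  unfold dn dn2
  rw [Fin.sum_univ_succ, Fin.sum_univ_succ, if_neg (by simp), if_neg (by simp), zero_add,
    zero_add]
  refine Finset.sum_congr rfl fun i _ => ?_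
  rw [if_pos]
  simp only [Fin.val_succ]
  omega

lemma dn_one {k : ℕ} (lam : Fin (k + 2) → ℕ) : dn lam 1 = lam 1 + dn2 lam := by
  unfold dn dn2
  rw [Fin.sum_univ_succ, Fin.sum_univ_succ, if_neg (by simp), if_pos (by simp), zero_add]
  congr 1

lemma sum_eq {k : ℕ} (lam : Fin (k + 2) → ℕ) : ∑ i, lam i = lam 0 + (lam 1 + dn2 lam) := by
  rw [Fin.sum_univ_succ, Fin.sum_univ_succ]
  rfl

lemma few {a b k : ℕ} (lam : Fin (k + 2) → ℕ) (ha : 2 ≤ a) (h : a + dn2 lam ≤ b + 1) :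
    plethMult a b (k + 2) lam ≤ plethMult b a (k + 2) lam := by
  apply H536.plethMult_le (N := a - 1) (by omega) (by omega) lam
  unfold dn2 at h
  omega

/-- The rows of a shape which occurs: at least two rows and `a ≥ 2`, if `w > 0`. -/
lemma shape {a b n : ℕ} {lam : Fin n → ℕ} (hz : plethMult a b n lam ≠ 0) (hw : 0 < dn lam 1) :
    2 ≤ n ∧ 2 ≤ a := by
  obtain ⟨hanti, hsum, hrow⟩ := H530.zero_stmt a b n lam hz
  have h1 : ∃ i : Fin n, 1 ≤ (i : ℕ) ∧ 0 < lam i := by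
    by_contra hcon
    push Not at hcon
    have h2 : dn lam 1 = 0 := by
      unfold dn
      refine Finset.sum_eq_zero fun i _ => ?_
      by_cases hi : 1 ≤ (i : ℕ)
      · rw [if_pos hi]
        have := hcon i hi
        omega
      · rw [if_neg hi]
    omega
  obtain ⟨i, hi, hpos⟩ := h1
  refine ⟨by have := i.2; omega, ?_⟩
  by_contra ha
  have := hrow i (by omega)
  omega

theorem tluE (hP : TwoLongPE) (hL : LinS) : TLUE := by
  obtain ⟨C1, c1, hC1, h1⟩ := hL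
  obtain ⟨C, c, hC, hc, h2⟩ := hP (11 * C1) c1 (by positivity) (Nat.cast_nonneg _)
  refine ⟨C, ⌈c⌉₊, hC, fun a b n lam hd hb hh => ?_⟩
  by_cases hz : plethMult a b n lam = 0
  · rw [hz]
    exact Nat.zero_le _
  have h5 : 5 * a ≤ b := by
    rcases Nat.eq_zero_or_pos a with h0 | h0
    · omega
    · have e1 : a * (17 * a) ≤ a * b := by nlinarith
      have := Nat.le_of_mul_le_mul_left e1 h0
      omega
  obtain ⟨L, hLdef⟩ : ∃ L : ℝ, L = 1 + Real.log a := ⟨_, rfl⟩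
  have hL1 : 1 ≤ L := by
    rw [hLdef]
    linarith [Real.log_natCast_nonneg a]
  by_cases hlin : C1 * (1 + Real.log a) ^ c1 * (dn lam 1 : ℝ) ≤ (a : ℝ) ^ 2
  · exact h1 a b h5 n lam hlin
  have hw : 0 < dn lam 1 := by
    by_contra hcon
    apply hlin
    rw [show dn lam 1 = 0 by omega, Nat.cast_zero, mul_zero]
    positivity
  obtain ⟨hn, ha⟩ := shape hz hw
  obtain ⟨hanti, hsum, -⟩ := H530.zero_stmt a b n lam hz
  obtain ⟨k, rfl⟩ := Nat.exists_eq_add_of_le' hn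
  rw [dn_two] at hd hb hh
  rw [dn_one] at hd hb hlin
  rcases hh with hh | hh
  swap
  · exact few lam ha hh
  refine h2 a b k lam hanti hsum (by omega) ?_ ?_ ?_
  · rw [Real.rpow_natCast, ← hLdef]
    rw [← hLdef] at hlin
    push Not at hlin
    have e1 : (11 * dn2 lam : ℝ) ≤ (lam 1 : ℝ) + dn2 lam := by exact_mod_cast hd
    have e2 : ((lam 1 + dn2 lam : ℕ) : ℝ) ≤ 11 * ((lam 1 : ℝ) - 9 * dn2 lam) := by
      push_cast
      linarith
    calc (a : ℝ) ^ 2 ≤ C1 * L ^ c1 * ((lam 1 + dn2 lam : ℕ) : ℝ) := hlin.le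
      _ ≤ C1 * L ^ c1 * (11 * ((lam 1 : ℝ) - 9 * dn2 lam)) :=
          mul_le_mul_of_nonneg_left e2 (by positivity)
      _ = 11 * C1 * L ^ c1 * ((lam 1 : ℝ) - 9 * dn2 lam) := by ring
  · refine le_trans ?_ hh
    rw [← hLdef]
    have e1 : L ^ c ≤ L ^ ⌈c⌉₊ := by
      rw [← Real.rpow_natCast]
      exact Real.rpow_le_rpow_of_exponent_le hL1 (Nat.le_ceil c)
    have ha0 : (0 : ℝ) ≤ a := Nat.cast_nonneg _
    exact mul_le_mul_of_nonneg_right (mul_le_mul_of_nonneg_left e1 hC.le) ha0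
  · have e1 := sum_eq lam
    omega

theorem tle8 (hP : TwoLongE) (hL : LinS) : TLE8 := by
  intro θ hθ
  obtain ⟨C1, c1, hC1, h1⟩ := hL
  obtain ⟨C, hC, h2⟩ := hP θ hθ
  refine ⟨C, hC, fun a b hab n lam hd hb => ?_⟩
  by_cases hz : plethMult a b n lam = 0
  · rw [hz]
    exact Nat.zero_le _
  have h5 : 5 * a ≤ b := by
    rcases Nat.eq_zero_or_pos a with h0 | h0
    · omega
    · have e1 : a * (17 * a) ≤ a * b := by nlinarith
      have := Nat.le_of_mul_le_mul_left e1 h0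
      omega
  rcases Nat.eq_zero_or_pos (dn lam 1) with hw | hw
  · apply h1 a b h5 n lam
    rw [hw, Nat.cast_zero, mul_zero]
    positivity
  obtain ⟨hn, ha⟩ := shape hz hw
  obtain ⟨hanti, hsum, -⟩ := H530.zero_stmt a b n lam hz
  obtain ⟨k, rfl⟩ := Nat.exists_eq_add_of_le' hn
  rw [dn_two] at hd hb
  rw [dn_one] at hd hb
  refine h2 a b k lam hanti hsum hab ?_ ?_
  · push_cast at hd
    linarith
  · have e1 := sum_eq lam
    omega

end Vale.Agent.P181.TL.H850
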