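import Vale.Agent.P181.TL.DefsP
import Vale.Agent.P181.TL.H850.Join

set_option autoImplicit false

/-!
# P181, TL+: the final forms with an arbitrary tail in the language of `dn`

`w = dn lam 1`, `D₂ = dn lam 2`, `λ₂ - λ₃ = dn lam 1 + dn lam 3 - 2 * dn lam 2`.
-/

namespace Vale.Agent.P181.TL.H850

open Vale.Agent.P181.H280 (plethMult)
open Vale.Agent.P181.PL (dn)
open Vale.Agent.P181.H467.NT (LinS)

/-- **Two long rows and an arbitrary tail, the union with `LinS`**: row two exceeds row three by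
`w` over a power of the logarithm. -/
def TLUP : Prop := ∀ (C₀ : ℝ) (c₀ : ℕ), 0 < C₀ → ∃ (C : ℝ) (c : ℕ), 0 < C ∧
  ∀ (a b n : ℕ) (lam : Fin n → ℕ),
  (dn lam 1 : ℝ) ≤ C₀ * (1 + Real.log a) ^ c₀ *
    ((dn lam 1 : ℝ) + (dn lam 3 : ℝ) - 2 * (dn lam 2 : ℝ)) →
  2 * dn lam 1 + 59 * dn lam 2 + 17 * a ^ 2 ≤ a * b →
  (C * (1 + Real.log a) ^ c * a ≤ (dn lam 2 : ℝ) ∨ a + dn lam 2 ≤ b + 1) →
  plethMult a b n lam ≤ plethMult b a n lam

/-- **Two long rows and an arbitrary tail, `b ≥ C a`.** -/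
def TLP8 : Prop := ∀ θ : ℝ, 0 < θ → ∃ C : ℝ, 0 < C ∧ ∀ a b : ℕ, C * a ≤ b →
  ∀ (n : ℕ) (lam : Fin n → ℕ),
  θ * (a : ℝ) ^ 2 + 2 * (dn lam 2 : ℝ) ≤ (dn lam 1 : ℝ) + (dn lam 3 : ℝ) →
  2 * dn lam 1 + 59 * dn lam 2 + 17 * a ^ 2 ≤ a * b →
  plethMult a b n lam ≤ plethMult b a n lam

lemma dn_two_three {k : ℕ} (lam : Fin (k + 3) → ℕ) : dn lam 2 = lam 2 + dn lam 3 := by
  have h : ∀ i : Fin (k + 3), (if 2 ≤ (i : ℕ) then lam i else 0) =
      (if i = 2 then lam 2 else 0) + if 3 ≤ (i : ℕ) then lam i else 0 := by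
    intro i
    have hv : ((2 : Fin (k + 3)) : ℕ) = 2 := Nat.mod_eq_of_lt (show 2 < k + 3 by omega)
    by_cases h2 : i = 2
    · have h5 : (i : ℕ) = 2 := by
        rw [h2]
        exact hv
      rw [if_pos h2, if_pos (by omega : 2 ≤ (i : ℕ)), if_neg (by omega : ¬ 3 ≤ (i : ℕ)), add_zero,
        h2]
    · rw [if_neg h2, zero_add]
      have h3 : (i : ℕ) ≠ 2 := fun h => h2 (Fin.ext (h.trans hv.symm))
      by_cases h4 : 3 ≤ (i : ℕ)
      · rw [if_pos h4, if_pos (by omega)]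
      · rw [if_neg h4, if_neg (by omega)]
  unfold dn
  rw [Finset.sum_congr rfl fun i _ => h i, Finset.sum_add_distrib, Finset.sum_ite_eq' Finset.univ,
    if_pos (Finset.mem_univ _)]

lemma five {a b x : ℕ} (h : x + 17 * a ^ 2 ≤ a * b) : 5 * a ≤ b := by
  rcases Nat.eq_zero_or_pos a with h0 | h0
  · omega
  · have e1 : a * (17 * a) ≤ a * b := by nlinarith
    have := Nat.le_of_mul_le_mul_left e1 h0
    omega

theorem tluP (hP : TwoLongPA) (hL : LinS) : TLUP := by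
  intro C₀ c₀ hC₀
  obtain ⟨C1, c1, hC1, h1⟩ := hL
  obtain ⟨C, c, hC, hc, h2⟩ := hP (C1 * C₀) ((c1 + c₀ : ℕ) : ℝ) (by positivity)
    (Nat.cast_nonneg _)
  refine ⟨C, ⌈c⌉₊, hC, fun a b n lam hd hb hh => ?_⟩
  by_cases hz : plethMult a b n lam = 0
  · rw [hz]
    exact Nat.zero_le _
  have h5 : 5 * a ≤ b := five hb
  obtain ⟨L, hLdef⟩ : ∃ L : ℝ, L = 1 + Real.log a := ⟨_, rfl⟩
  have hL1 : 1 ≤ L := by
    rw [hLdef]
    linarith [Real.log_natCast_nonneg a]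
  by_cases hlin : C1 * (1 + Real.log a) ^ c1 * (dn lam 1 : ℝ) ≤ (a : ℝ) ^ 2
  · exact h1 a b h5 n lam hlin
  have hw : 0 < dn lam 1 := by
    by_contra hcon
    apply hlin
    rw [show dn lam 1 = 0 by omega, Nat.cast_zero, mul_zero]
    positivity
  obtain ⟨hn, ha⟩ := shape hz hw
  obtain ⟨hanti, hsum, -⟩ := H530.zero_stmt a b n lam hz
  rcases hh with hh | hh
  swap
  · obtain ⟨k, rfl⟩ := Nat.exists_eq_add_of_le' hn
    rw [dn_two] at hh
    exact few lam ha hh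
  rcases Nat.lt_or_ge n 3 with h3 | h3
  · obtain rfl : n = 0 + 2 := by omega
    refine few lam ha ?_
    have e1 : dn2 lam = 0 := rfl
    omega
  obtain ⟨k, rfl⟩ := Nat.exists_eq_add_of_le' h3
  have e23 := dn_two_three lam
  have e2 : dn lam 2 = dn2 (k := k + 1) lam := dn_two (k := k + 1) lam
  have e1 : dn lam 1 = lam 1 + dn2 (k := k + 1) lam := dn_one (k := k + 1) lam
  have e0 : ∑ i, lam i = lam 0 + (lam 1 + dn2 (k := k + 1) lam) := sum_eq (k := k + 1) lam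
  have egap : (dn lam 1 : ℝ) + (dn lam 3 : ℝ) - 2 * (dn lam 2 : ℝ) = (lam 1 : ℝ) - lam 2 := by
    have e4 : ((dn lam 2 : ℕ) : ℝ) = (lam 2 : ℝ) + (dn lam 3 : ℝ) := by exact_mod_cast e23
    have e5 : ((dn lam 1 : ℕ) : ℝ) = (lam 1 : ℝ) + (dn lam 2 : ℝ) := by
      rw [e2]
      exact_mod_cast e1
    linarith
  rw [egap] at hd
  refine h2 a b k lam hanti hsum (by omega) ?_ ?_ ?_
  · rw [Real.rpow_natCast, ← hLdef]
    rw [← hLdef] at hlin hd
    push Not at hlin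
    calc (a : ℝ) ^ 2 ≤ C1 * L ^ c1 * (dn lam 1 : ℝ) := hlin.le
      _ ≤ C1 * L ^ c1 * (C₀ * L ^ c₀ * ((lam 1 : ℝ) - lam 2)) :=
          mul_le_mul_of_nonneg_left hd (by positivity)
      _ = C1 * C₀ * L ^ (c1 + c₀) * ((lam 1 : ℝ) - lam 2) := by
          rw [pow_add]
          ring
  · rw [← e2]
    refine le_trans ?_ hh
    rw [← hLdef]
    have e6 : L ^ c ≤ L ^ ⌈c⌉₊ := by
      rw [← Real.rpow_natCast]
      exact Real.rpow_le_rpow_of_exponent_le hL1 (Nat.le_ceil c)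
    have ha0 : (0 : ℝ) ≤ a := Nat.cast_nonneg _
    exact mul_le_mul_of_nonneg_right (mul_le_mul_of_nonneg_left e6 hC.le) ha0
  · omega

theorem tlp8 (hP : TwoLongA) (hL : LinS) : TLP8 := by
  intro θ hθ
  obtain ⟨C1, c1, hC1, h1⟩ := hL
  obtain ⟨C, hC, h2⟩ := hP θ hθ
  refine ⟨C, hC, fun a b hab n lam hd hb => ?_⟩
  by_cases hz : plethMult a b n lam = 0
  · rw [hz]
    exact Nat.zero_le _
  have h5 : 5 * a ≤ b := five hb
  rcases Nat.eq_zero_or_pos (dn lam 1) with hw | hw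
  · apply h1 a b h5 n lam
    rw [hw, Nat.cast_zero, mul_zero]
    positivity
  obtain ⟨hn, ha⟩ := shape hz hw
  obtain ⟨hanti, hsum, -⟩ := H530.zero_stmt a b n lam hz
  rcases Nat.lt_or_ge n 3 with h3 | h3
  · obtain rfl : n = 0 + 2 := by omega
    refine few lam ha ?_
    have e1 : dn2 lam = 0 := rfl
    omega
  obtain ⟨k, rfl⟩ := Nat.exists_eq_add_of_le' h3
  have e23 := dn_two_three lam
  have e2 : dn lam 2 = dn2 (k := k + 1) lam := dn_two (k := k + 1) lam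
  have e1 : dn lam 1 = lam 1 + dn2 (k := k + 1) lam := dn_one (k := k + 1) lam
  have e0 : ∑ i, lam i = lam 0 + (lam 1 + dn2 (k := k + 1) lam) := sum_eq (k := k + 1) lam
  have e4 : ((dn lam 2 : ℕ) : ℝ) = (lam 2 : ℝ) + (dn lam 3 : ℝ) := by exact_mod_cast e23
  have e5 : ((dn lam 1 : ℕ) : ℝ) = (lam 1 : ℝ) + (dn lam 2 : ℝ) := by
    rw [e2]
    exact_mod_cast e1
  refine h2 a b k lam hanti hsum hab ?_ ?_
  · linarith
  · omega

end Vale.Agent.P181.TL.H850
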