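import Vale.Agent.P181.TL.Defs
import Vale.Agent.P181.SZR1a.Main
import Vale.Agent.P181.SZR1b.Dim

set_option autoImplicit false

/-!
# P181, TL: the block (T1), the upper bound

A translation invariant symmetric highest weight polynomial is determined by its components of
sorted row-two degrees.
-/

open MvPolynomial

namespace Vale.Agent.P181.TL.H850

open Vale.Agent.P181.T4 (HW rowOp rowOp_apply)
open Vale.Agent.P181.H280 (plethMult)
open Vale.Agent.P181.SZ
open Vale.Agent.P181.SZ.R1b (pm pm_apply pm_apply' coeff_pm coeff_rowOp exists_perm_of_map_eq)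

variable {k a : ℕ}

/-- The exponents with first row `d` and the other rows `u`. -/
noncomputable def ex0 (d : Fin a → ℕ) (u : Fin k × Fin a →₀ ℕ) : Fin (k + 1) × Fin a →₀ ℕ :=
  Finsupp.equivFunOnFinite.symm fun p =>
    Fin.cases (motive := fun _ => ℕ) (d p.2) (fun i => u (i, p.2)) p.1

lemma ex0_zero (d : Fin a → ℕ) (u : Fin k × Fin a →₀ ℕ) (j : Fin a) : ex0 d u (0, j) = d j := rfl

lemma ex0_succ (d : Fin a → ℕ) (u : Fin k × Fin a →₀ ℕ) (i : Fin k) (j : Fin a) :
    ex0 d u (i.succ, j) = u (i, j) := rfl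

lemma res_ex0 (d : Fin a → ℕ) (u : Fin k × Fin a →₀ ℕ) : res (ex0 d u) = u := by
  ext ⟨i, j⟩
  rfl

lemma ex0_res {d : Fin a → ℕ} {v : Fin (k + 1) × Fin a →₀ ℕ} (h : ∀ j, v (0, j) = d j) :
    ex0 d (res v) = v := by
  ext ⟨i, j⟩
  refine Fin.cases ?_ (fun i => rfl) i
  exact (h j).symm

open scoped Classical in
/-- The coefficient of `∏ X (0, j) ^ d j`. -/
noncomputable def cz (k a : ℕ) (d : Fin a → ℕ) :
    MvPolynomial (Fin (k + 1) × Fin a) ℂ →ₗ[ℂ] MvPolynomial (Fin k × Fin a) ℂ :=
  (basisMonomials (Fin (k + 1) × Fin a) ℂ).constr ℂ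
    fun v => if ∀ j, v (0, j) = d j then monomial (res v) 1 else 0

open scoped Classical in
lemma cz_monomial (d : Fin a → ℕ) (v : Fin (k + 1) × Fin a →₀ ℕ) (c : ℂ) :
    cz k a d (monomial v c) = if ∀ j, v (0, j) = d j then monomial (res v) c else 0 := by
  have h : (monomial v c : MvPolynomial (Fin (k + 1) × Fin a) ℂ) =
      c • basisMonomials (Fin (k + 1) × Fin a) ℂ v := by
    rw [coe_basisMonomials, smul_monomial, smul_eq_mul, mul_one]
  rw [h, map_smul, cz, Module.Basis.constr_basis]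
  split_ifs
  · rw [smul_monomial, smul_eq_mul, mul_one]
  · rw [smul_zero]

lemma coeff_cz (d : Fin a → ℕ) (f : MvPolynomial (Fin (k + 1) × Fin a) ℂ)
    (u : Fin k × Fin a →₀ ℕ) : coeff u (cz k a d f) = coeff (ex0 d u) f := by
  classical
  induction f using MvPolynomial.induction_on' with
  | monomial v c =>
    rw [cz_monomial, coeff_monomial]
    by_cases h : v = ex0 d u
    · subst h
      rw [if_pos (show ∀ j, ex0 d u (0, j) = d j from fun j => rfl), if_pos rfl, coeff_monomial,
        if_pos (res_ex0 d u)]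
    · rw [if_neg h]
      split_ifs with h1
      · rw [coeff_monomial, if_neg]
        intro h2
        apply h
        rw [← h2, ex0_res h1]
      · rw [coeff_zero]
  | add p q hp hq => rw [map_add, coeff_add, coeff_add, hp, hq]

lemma ex0_shift (d : Fin a → ℕ) (u : Fin k × Fin a →₀ ℕ) (s i : Fin k) (j : Fin a) :
    ex0 d (u - Finsupp.single (s, j) 1 + Finsupp.single (i, j) 1) =
      ex0 d u - Finsupp.single (s.succ, j) 1 + Finsupp.single (i.succ, j) 1 := by
  classical
  ext ⟨l, j'⟩
  refine Fin.cases ?_ (fun l => ?_) l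
  · rw [ex0_zero, Finsupp.add_apply, Finsupp.tsub_apply, ex0_zero, Finsupp.single_apply,
      Finsupp.single_apply, if_neg, if_neg]
    · rfl
    · intro h
      exact absurd (congrArg Prod.fst h) (Fin.succ_ne_zero i)
    · intro h
      exact absurd (congrArg Prod.fst h) (Fin.succ_ne_zero s)
  · rw [ex0_succ, Finsupp.add_apply, Finsupp.tsub_apply, Finsupp.add_apply, Finsupp.tsub_apply,
      ex0_succ]
    simp only [Finsupp.single_apply, Prod.mk.injEq, Fin.succ_inj]

lemma rowOp_cz (d : Fin a → ℕ) (s i : Fin k) (f : MvPolynomial (Fin (k + 1) × Fin a) ℂ) :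
    rowOp s i (cz k a d f) = cz k a d (rowOp s.succ i.succ f) := by
  classical
  apply MvPolynomial.ext
  intro u
  rw [coeff_cz, coeff_rowOp, coeff_rowOp]
  refine Finset.sum_congr rfl fun j _ => ?_
  rw [ex0_succ]
  by_cases h : u (s, j) = 0
  · rw [if_pos h, if_pos h]
  · rw [if_neg h, if_neg h, coeff_cz, ex0_shift]
    have h1 : (u - Finsupp.single (s, j) 1 : Fin k × Fin a →₀ ℕ) (i, j) =
        (ex0 d u - Finsupp.single (s.succ, j) 1 : Fin (k + 1) × Fin a →₀ ℕ) (i.succ, j) := by
      rw [Finsupp.tsub_apply, Finsupp.tsub_apply, ex0_succ]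
      simp only [Finsupp.single_apply, Prod.mk.injEq, Fin.succ_inj]
    rw [h1]

lemma cz_mem {mu : Fin (k + 1) → ℕ} {f : MvPolynomial (Fin (k + 1) × Fin a) ℂ}
    (hf : f ∈ HW (k + 1) (Fin a) mu) (d : Fin a → ℕ) :
    cz k a d f ∈ HW k (Fin a) fun i => mu i.succ := by
  refine ⟨fun v hv i => ?_, fun s i hsi => ?_⟩
  · rw [coeff_cz] at hv
    exact hf.1 _ hv i.succ
  · rw [rowOp_cz, hf.2 s.succ i.succ (Fin.succ_lt_succ_iff.2 hsi), map_zero]

/-- A family with prescribed values. -/
lemma exists_rep (b a : ℕ) (x : Sym (Fin (b + 1)) a) :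
    ∃ d : Fin a → Fin (b + 1), (Finset.univ : Finset (Fin a)).val.map d = x.1 := by
  obtain ⟨l, hl⟩ : ∃ l : List (Fin (b + 1)), (l : Multiset (Fin (b + 1))) = x.1 :=
    Quot.exists_rep _
  have hlen : l.length = a := by
    have h1 := congrArg Multiset.card hl
    rw [Multiset.coe_card, x.2] at h1
    exact h1
  subst hlen
  refine ⟨l.get, ?_⟩
  rw [Fin.univ_val_map, List.ofFn_get, hl]

theorem finrank_TI_le (a b k : ℕ) (mu : Fin (k + 1) → ℕ) :
    Module.finrank ℂ (TI a b (k + 1) mu) ≤
      (a + b).choose a * Module.finrank ℂ (HW k (Fin a) fun i => mu i.succ) := by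
  classical
  choose D hD using exists_rep b a
  let Φ : TI a b (k + 1) mu →ₗ[ℂ]
      ((x : Sym (Fin (b + 1)) a) → HW k (Fin a) fun i => mu i.succ) :=
    LinearMap.pi fun x => ((cz k a fun j => (D x j : ℕ)).comp
      (TI a b (k + 1) mu).subtype).codRestrict (HW k (Fin a) fun i => mu i.succ)
        fun f => cz_mem f.2.1 _
  have hΦ : ∀ (f : TI a b (k + 1) mu) (x : Sym (Fin (b + 1)) a),
      ((Φ f x : HW k (Fin a) fun i => mu i.succ) : MvPolynomial (Fin k × Fin a) ℂ) =
        cz k a (fun j => (D x j : ℕ)) f.1 := fun f x => rfl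
  have hinj : Function.Injective Φ := by
    rw [← LinearMap.ker_eq_bot, LinearMap.ker_eq_bot']
    intro f hf
    apply Subtype.ext
    apply MvPolynomial.ext
    intro v
    rw [ZeroMemClass.coe_zero, coeff_zero]
    by_contra hv
    obtain ⟨-, hs, hb, -⟩ := f.2
    have h1 : ∀ j, v (0, j) < b + 1 := by
      intro j
      have h2 := hb v hv j
      have h3 : v (0, j) ≤ ∑ i, v (i, j) :=
        Finset.single_le_sum (f := fun i => v (i, j)) (fun i _ => Nat.zero_le _)
          (Finset.mem_univ 0)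
      omega
    let d' : Fin a → Fin (b + 1) := fun j => ⟨v (0, j), h1 j⟩
    let x : Sym (Fin (b + 1)) a := ⟨(Finset.univ : Finset (Fin a)).val.map d', by
      rw [Multiset.card_map]
      exact Finset.card_fin a⟩
    obtain ⟨τ, hτ⟩ := exists_perm_of_map_eq (D x) d' (hD x)
    have h4 : ∀ j, pm τ v (0, j) = (D x j : ℕ) := by
      intro j
      rw [pm_apply']
      have h5 := congrFun hτ (τ.symm j)
      rw [Function.comp_apply, τ.apply_symm_apply] at h5
      rw [← h5]
    have h6 : coeff (pm τ v) f.1 = coeff v f.1 := by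
      have h7 := coeff_pm τ f.1 v
      rwa [hs τ] at h7
    have h8 : cz k a (fun j => (D x j : ℕ)) f.1 = 0 := by
      rw [← hΦ f x, hf]
      rfl
    have h9 := coeff_cz (fun j => (D x j : ℕ)) f.1 (res (pm τ v))
    rw [h8, coeff_zero, ex0_res h4, h6] at h9
    exact hv h9.symm
  have h1 := LinearMap.finrank_le_finrank_of_injective hinj
  rw [Module.finrank_pi_fintype, Finset.sum_const, Finset.card_univ, Sym.card_sym_eq_choose,
    Fintype.card_fin, smul_eq_mul] at h1
  have h2 : b + 1 + a - 1 = a + b := by omega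
  rw [h2] at h1
  exact h1

/-- **(T1)** -/
theorem upB : UpB := by
  intro a b k lam
  exact (R1a a b (k + 1) lam).trans (finrank_TI_le a b k (tl lam))

end Vale.Agent.P181.TL.H850
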